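import Vale.Agent.P235.H750.VDefs
import Vale.Agent.P235.H606.Loc

/-!
P235 (helper252): row SPA, the centres of well separated balls, from the quotients whose fibres
contain the balls.
-/

set_option autoImplicit false

namespace Vale.Agent.P235.H252

open SimpleGraph Vale.Agent.P235 Vale.Agent.P235.H134 Vale.Agent.P235.H606
open Vale.Agent.P235.H750 Vale.Agent.P235.ST.H742

/-- a connected set all of whose edges have length `ε` is small -/
theorem small {V : Type} {G : SimpleGraph V} [Finite V] {ℓ : Sym2 V → ℝ}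
    (hℓ : ∀ e ∈ G.edgeSet, 0 < ℓ e) {B : Set V} {ε : ℝ} (hB : (G.induce B).Connected)
    (hε : 0 ≤ ε) (hl : ∀ u v, u ∈ B → v ∈ B → ℓ s(u, v) = ε) {x y : V}
    (hx : x ∈ B) (hy : y ∈ B) : pathDist G ℓ x y ≤ Nat.card V * ε := by
  classical
  have : Fintype V := Fintype.ofFinite V
  have hw : ∀ {a b : B} (q : (G.induce B).Walk a b),
      ((q.map (Embedding.induce B).toHom).edges.map ℓ).sum = q.length * ε := by
    intro a b q
    induction q with
    | nil => simp
    | @cons a c b h q ih =>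
      rw [Walk.map_cons, Walk.edges_cons, List.map_cons, List.sum_cons, ih, Walk.length_cons]
      have h1 : ℓ s(a.1, c.1) = ε := hl _ _ a.2 c.2
      show ℓ s(a.1, c.1) + _ = _
      rw [h1]
      push_cast
      ring
  obtain ⟨q⟩ := hB ⟨x, hx⟩ ⟨y, hy⟩
  have h1 := pathDist_le hℓ (q.bypass.map (Embedding.induce B).toHom)
  rw [hw] at h1
  have h2 : q.bypass.length < Fintype.card B := q.bypass_isPath.length_lt
  have h3 : Fintype.card B ≤ Nat.card V := by
    rw [Nat.card_eq_fintype_card]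
    exact Fintype.card_subtype_le _
  have h4 : (q.bypass.length : ℝ) ≤ Nat.card V := by exact_mod_cast h2.le.trans h3
  exact h1.trans (mul_le_mul_of_nonneg_right h4 hε)

theorem quot_reach {V : Type} {G : SimpleGraph V} {O : Set V} (p : V → O) {u v : V}
    (q : G.Walk u v) : (quotO G O p).Reachable (p u) (p v) := by
  induction q with
  | nil => exact Reachable.refl _
  | @cons u a v hua q ih =>
    by_cases he : p u = p a
    · rw [he]
      exact ih
    · have h1 : (quotO G O p).Adj (p u) (p a) := ⟨he, u, a, hua, rfl, rfl⟩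
      exact h1.reachable.trans ih

theorem spa (hRet : RetStmt) (hCmp : CmpStmt) : SpaStmt := by
  intro V _ G ℓ r O R C hc hM hℓ hO hC hR hdis hQ
  classical
  have hd := pathDist_isMet hc hℓ
  obtain ⟨D0, hD0, hD0e⟩ : ∃ D0 : ℝ, 0 < D0 ∧ ∀ e ∈ G.edgeSet, D0 ≤ ℓ e := by
    by_cases h : G.edgeSet.Nonempty
    · obtain ⟨e, he, hmin⟩ := Set.exists_min_image G.edgeSet ℓ (Set.toFinite _) h
      exact ⟨ℓ e, hℓ e he, hmin⟩
    · exact ⟨1, one_pos, fun e he => absurd ⟨e, he⟩ h⟩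
  obtain ⟨o0, ho0⟩ := hO
  have hN : (1 : ℝ) ≤ Nat.card V := by
    haveI : Nonempty V := ⟨o0⟩
    have : 0 < Nat.card V := Nat.card_pos
    exact_mod_cast this
  obtain ⟨ε, hε, hε2, hεD⟩ : ∃ ε : ℝ, 0 < ε ∧ 2 * (Nat.card V * ε) = D0 ∧ ε ≤ D0 := by
    have h1 : 2 * (Nat.card V * (D0 / (2 * Nat.card V))) = D0 := by field_simp
    have h2 : 0 < D0 / (2 * (Nat.card V : ℝ)) := by positivity
    refine ⟨D0 / (2 * Nat.card V), h2, h1, ?_⟩
    nlinarith
  -- the balls
  let Bo : V → Set V := fun o => ball G ℓ o (R o)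
  have hself : ∀ o ∈ O, o ∈ Bo o := fun o ho => by
    show pathDist G ℓ o o ≤ R o
    rw [hd.self]
    exact (hR o ho).le
  have huniq : ∀ o ∈ O, ∀ o' ∈ O, ∀ v, v ∈ Bo o → v ∈ Bo o' → o = o' := by
    intro o ho o' ho' v hv hv'
    by_contra hne
    have h0 : Disjoint (ball G ℓ o (5 * R o)) (ball G ℓ o' (5 * R o')) := hdis ho ho' hne
    have h1 : v ∈ ball G ℓ o (5 * R o) := by
      show pathDist G ℓ o v ≤ 5 * R o
      have h1 : pathDist G ℓ o v ≤ R o := hv
      have h2 := hR o ho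
      linarith
    have h2 : v ∈ ball G ℓ o' (5 * R o') := by
      show pathDist G ℓ o' v ≤ 5 * R o'
      have h1 : pathDist G ℓ o' v ≤ R o' := hv'
      have h2 := hR o' ho'
      linarith
    exact Set.disjoint_left.1 h0 h1 h2
  have hconn : ∀ o ∈ O, (G.induce (Bo o)).Connected := fun o ho =>
    (indStmt V G ℓ o (R o) hc hℓ (hR o ho).le).1
  -- the lengths
  let ℓ' : Sym2 V → ℝ := fun e => if ∃ o ∈ O, ∀ v ∈ e, v ∈ Bo o then ε else ℓ e
  have e1 : ∀ o ∈ O, ∀ u v, u ∈ Bo o → v ∈ Bo o → ℓ' s(u, v) = ε := by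
    intro o ho u v hu hv
    have h1 : ∃ o ∈ O, ∀ w ∈ s(u, v), w ∈ Bo o := ⟨o, ho, fun w hw => by
      rcases Sym2.mem_iff.1 hw with rfl | rfl
      · exact hu
      · exact hv⟩
    show (if ∃ o ∈ O, ∀ w ∈ s(u, v), w ∈ Bo o then ε else ℓ s(u, v)) = ε
    rw [if_pos h1]
  have e2 : ∀ u v, (¬ ∃ o ∈ O, u ∈ Bo o ∧ v ∈ Bo o) → ℓ' s(u, v) = ℓ s(u, v) := by
    intro u v h
    have h1 : ¬ ∃ o ∈ O, ∀ w ∈ s(u, v), w ∈ Bo o := fun ⟨o, ho, h2⟩ =>
      h ⟨o, ho, h2 u (Sym2.mem_mk_left u v), h2 v (Sym2.mem_mk_right u v)⟩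
    show (if ∃ o ∈ O, ∀ w ∈ s(u, v), w ∈ Bo o then ε else ℓ s(u, v)) = _
    rw [if_neg h1]
  have hℓ' : ∀ e ∈ G.edgeSet, 0 < ℓ' e := by
    intro e he
    show 0 < (if ∃ o ∈ O, ∀ v ∈ e, v ∈ Bo o then ε else ℓ e)
    split_ifs
    · exact hε
    · exact hℓ e he
  have hle : ∀ e ∈ G.edgeSet, ℓ' e ≤ ℓ e := by
    intro e he
    show (if ∃ o ∈ O, ∀ v ∈ e, v ∈ Bo o then ε else ℓ e) ≤ ℓ e
    split_ifs
    · exact hεD.trans (hD0e e he)
    · exact le_rfl
  have hd' := pathDist_isMet hc hℓ'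
  have hmono : ∀ x y, pathDist G ℓ' x y ≤ pathDist G ℓ x y := by
    intro x y
    have h1 := pathDist_semi (ℓ := ℓ) (ρ := pathDist G ℓ') (K := 1) hc one_pos hd'.self hd'.tri
      (fun u v huv => by
        rw [one_mul]
        exact (pathDist_adj hℓ' huv).trans (hle _ (G.mem_edgeSet.mpr huv))) x y
    rwa [one_mul] at h1
  have hcmp := hCmp V G ℓ ℓ' O R hc hℓ hℓ' hR hdis (fun u v _ h => e2 u v h)
  have hsm : ∀ o ∈ O, ∀ v ∈ Bo o, pathDist G ℓ' o v ≤ Nat.card V * ε := fun o ho v hv =>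
    small hℓ' (hconn o ho) hε.le (fun u v hu hv => e1 o ho u v hu hv) (hself o ho) hv
  -- the retractions
  set X : Set V := {v | ∃ o ∈ O, v ∈ Bo o} with hX
  obtain ⟨ι, inst, w, π, hw, hs, hcon, hexp⟩ :=
    hRet V G ℓ' r X hc hM hℓ' ⟨o0, o0, ho0, hself o0 ho0⟩
  have hcen : ∀ v, ∃ o : O, v ∈ X → v ∈ Bo o := by
    intro v
    by_cases hv : v ∈ X
    · obtain ⟨o, ho, h⟩ := hv
      exact ⟨⟨o, ho⟩, fun _ => h⟩
    · exact ⟨⟨o0, ho0⟩, fun h => absurd h hv⟩
  choose cen hcen using hcen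
  have hcenu : ∀ (o : O) (v : V), v ∈ Bo o → cen v = o := fun o v hv =>
    Subtype.ext (huniq _ (cen v).2 _ o.2 v (hcen v ⟨o, o.2, hv⟩) hv)
  let p : ι → V → O := fun i v => cen (π i v)
  have hp : ∀ i (o : O), ∀ v ∈ Bo o, p i v = o := by
    intro i o v hv
    show cen (π i v) = o
    rw [(hcon i).id v ⟨o, o.2, hv⟩]
    exact hcenu o v hv
  have hpo : ∀ i (o : O), p i o = o := fun i o => hp i o o (hself o o.2)
  have hfib : ∀ i (o : O), (G.induce {v | p i v = o}).Connected := by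
    intro i o
    have hmem : (o : V) ∈ {v | p i v = o} := hpo i o
    haveI : Nonempty {v | p i v = o} := ⟨⟨o, hmem⟩⟩
    have key : ∀ v : {v | p i v = o}, (G.induce {v | p i v = o}).Reachable v ⟨o, hmem⟩ := by
      rintro ⟨v, hv⟩
      obtain ⟨q, hq⟩ := (hcon i).conn v
      have hv' : cen (π i v) = o := hv
      have hq' : ∀ z ∈ q.support, z ∈ {v | p i v = o} := fun z hz => by
        show cen (π i z) = o
        rw [hq z hz]
        exact hv'
      have hb : π i v ∈ Bo o := by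
        have := hcen (π i v) ((hcon i).mem v)
        rwa [hv'] at this
      have h1 : (G.induce {v | p i v = o}).Reachable ⟨v, hv⟩
          ⟨π i v, hq' _ q.end_mem_support⟩ := ⟨q.induce _ hq'⟩
      have hsub : Bo o ≤ {v | p i v = o} := fun z hz => hp i o z hz
      obtain ⟨t⟩ := hconn o o.2 ⟨π i v, hb⟩ ⟨o, hself o o.2⟩
      have h2 : (G.induce {v | p i v = o}).Reachable ⟨π i v, hq' _ q.end_mem_support⟩
          ⟨o, hmem⟩ := ⟨t.map (induceHomOfLE G hsub).toHom⟩
      exact h1.trans h2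
    exact ⟨fun a b => (key a).trans (key b).symm⟩
  have hQc : ∀ i, (quotO G O (p i)).Connected := by
    intro i
    haveI : Nonempty O := ⟨⟨o0, ho0⟩⟩
    refine ⟨fun a b => ?_⟩
    obtain ⟨q⟩ := hc a.1 b.1
    have h1 := quot_reach (p i) q
    rwa [hpo i a, hpo i b] at h1
  -- the quotients
  set m : Sym2 O → ℝ := torsoLen (pathDist G ℓ') O with hm
  have hmk : ∀ x y : O, m s(x, y) = pathDist G ℓ' x.1 y.1 := fun x y => torsoLen_mk hd'.symm x y
  have hmpos : ∀ i, ∀ e ∈ (quotO G O (p i)).edgeSet, 0 < m e := by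
    intro i e
    induction e using Sym2.ind with
    | _ x y =>
      intro he
      have h : (quotO G O (p i)).Adj x y := he
      rw [hmk]
      exact hd'.pos _ _ fun e => h.1 (Subtype.ext e)
  have hMd : ∀ i, IsMet (pathDist (quotO G O (p i)) m) := fun i =>
    pathDist_isMet (hQc i) (hmpos i)
  have hρ : ∀ i, ∃ ρ : O → O → ℝ, IsL1 ρ ∧
      (∀ x y, pathDist (quotO G O (p i)) m x y ≤ ρ x y) ∧
      ∀ x y, ρ x y ≤ C * pathDist (quotO G O (p i)) m x y := by
    intro i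
    obtain ⟨ρ, h1, h2, h3, -⟩ := (hQ (p i) (hp i) (hfib i) (hQc i) m (hmpos i)).toL1S
    exact ⟨ρ, h1.isL1, h2, h3⟩
  choose ρ hρI hρl hρu using hρ
  have hlow : ∀ i (x y : O), pathDist G ℓ' x.1 y.1 ≤ ρ i x y := by
    intro i x y
    refine le_trans ?_ (hρl i x y)
    have h1 := pathDist_semi (ℓ := m) (ρ := fun x y : O => pathDist G ℓ' x.1 y.1) (K := 1) (hQc i)
      one_pos (fun x => hd'.self _) (fun x y z => hd'.tri _ _ _)
      (fun u v huv => by rw [one_mul, hmk]) x y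
    rwa [one_mul] at h1
  set K : ℝ := 10 ^ 6 * ((r : ℝ) + 2) ^ 6 with hK
  have hK1 : 1 ≤ K := by
    have h1 : (1 : ℝ) ≤ (r : ℝ) + 2 := by
      have : (0 : ℝ) ≤ r := by positivity
      linarith
    have h2 : (1 : ℝ) ≤ ((r : ℝ) + 2) ^ 6 := one_le_pow₀ h1
    rw [hK]
    linarith
  have hC0 : 0 < C := by linarith
  let F0 : V → V → ℝ := fun u v => ∑ i, w i * ρ i (p i u) (p i v)
  have hF0 : IsL1 F0 := IsL1.sum Finset.univ (fun i (u v : V) => w i * ρ i (p i u) (p i v))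
    fun i _ => ((hρI i).comap (p i)).smul (hw i)
  have hF0l : ∀ u v, G.Adj u v → F0 u v ≤ C * (K + 1) * ℓ' s(u, v) := by
    intro u v huv
    have hl0 := hℓ' _ (G.mem_edgeSet.mpr huv)
    by_cases hin : ∃ o ∈ O, u ∈ Bo o ∧ v ∈ Bo o
    · obtain ⟨o, ho, hu, hv⟩ := hin
      have h0 : F0 u v = 0 := by
        refine Finset.sum_eq_zero fun i _ => ?_
        rw [hp i ⟨o, ho⟩ u hu, hp i ⟨o, ho⟩ v hv, (hρI i).self, mul_zero]
      rw [h0]
      positivity
    · have hlD : D0 ≤ ℓ' s(u, v) := by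
        rw [e2 u v hin]
        exact hD0e _ (G.mem_edgeSet.mpr huv)
      have h1 : ∀ i, ρ i (p i u) (p i v) ≤
          C * (pathDist G ℓ' (π i u) (π i v) + ℓ' s(u, v)) := by
        intro i
        refine (hρu i _ _).trans (mul_le_mul_of_nonneg_left ?_ hC0.le)
        have h00 := hd'.nonneg (π i u) (π i v)
        by_cases he : p i u = p i v
        · rw [he, (hMd i).self]
          positivity
        · have h2 : (quotO G O (p i)).Adj (p i u) (p i v) := ⟨he, u, v, huv, rfl, rfl⟩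
          have h3 := pathDist_adj (hmpos i) h2
          rw [hmk] at h3
          have hbu : π i u ∈ Bo (p i u) := hcen (π i u) ((hcon i).mem u)
          have hbv : π i v ∈ Bo (p i v) := hcen (π i v) ((hcon i).mem v)
          have h4 := hsm _ (p i u).2 _ hbu
          have h5 := hsm _ (p i v).2 _ hbv
          have h6 := hd'.tri (p i u).1 (π i u) (p i v).1
          have h7 := hd'.tri (π i u) (π i v) (p i v).1
          have h8 := hd'.symm (π i v) (p i v).1
          linarith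
      calc F0 u v ≤ ∑ i, w i * (C * (pathDist G ℓ' (π i u) (π i v) + ℓ' s(u, v))) :=
            Finset.sum_le_sum fun i _ => mul_le_mul_of_nonneg_left (h1 i) (hw i)
        _ = C * (∑ i, w i * pathDist G ℓ' (π i u) (π i v) + (∑ i, w i) * ℓ' s(u, v)) := by
            rw [mul_add, Finset.mul_sum, Finset.sum_mul, Finset.mul_sum, ← Finset.sum_add_distrib]
            exact Finset.sum_congr rfl fun i _ => by ring
        _ ≤ C * (K * ℓ' s(u, v) + 1 * ℓ' s(u, v)) := by
            rw [hs]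
            exact mul_le_mul_of_nonneg_left (by linarith [hexp u v huv]) hC0.le
        _ = C * (K + 1) * ℓ' s(u, v) := by ring
  have hF0u : ∀ x y, F0 x y ≤ C * (K + 1) * pathDist G ℓ' x y := fun x y =>
    pathDist_semi hc (by positivity) hF0.self hF0.tri hF0l x y
  have hF0w : ∀ x y : O, pathDist G ℓ' x.1 y.1 ≤ F0 x.1 y.1 := by
    intro x y
    calc pathDist G ℓ' x.1 y.1 = ∑ i, w i * pathDist G ℓ' x.1 y.1 := by
          rw [← Finset.sum_mul, hs, one_mul]
      _ ≤ F0 x.1 y.1 := Finset.sum_le_sum fun i _ => mul_le_mul_of_nonneg_left (by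
          have h1 := hlow i (p i x.1) (p i y.1)
          rwa [hpo i x, hpo i y] at h1 ⊢) (hw i)
  have hfin : IsL1 (fun x y : O => 4 * F0 x.1 y.1) := (hF0.comap Subtype.val).smul (by norm_num)
  refine hfin.embeds (fun x y => ?_) fun x y => ?_
  · have h1 := hcmp x.1 x.2 y.1 y.2
    have h2 := hF0w x y
    linarith
  · have h1 := hF0u x.1 y.1
    have h2 := hmono x.1 y.1
    have h3 := hd.nonneg x.1 y.1
    calc 4 * F0 x.1 y.1 ≤ 4 * (C * (K + 1) * pathDist G ℓ x.1 y.1) := by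
          have : C * (K + 1) * pathDist G ℓ' x.1 y.1 ≤ C * (K + 1) * pathDist G ℓ x.1 y.1 :=
            mul_le_mul_of_nonneg_left h2 (by positivity)
          linarith
      _ = (4 * (K + 1) * C) * pathDist G ℓ x.1 y.1 := by ring
      _ ≤ (100 * K * C) * pathDist G ℓ x.1 y.1 := by
          refine mul_le_mul_of_nonneg_right (mul_le_mul_of_nonneg_right ?_ hC0.le) h3
          linarith
      _ = 10 ^ 8 * ((r : ℝ) + 2) ^ 6 * C * pathDist G ℓ x.1 y.1 := by
          rw [hK]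
          ring

end Vale.Agent.P235.H252
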